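import Mathlib
import Vale.Agent.Lib.P002.Final

/-!
# P002: potential density of integral points, in every rank, when the fundamental group is a
central extension of a free product of cyclic groups
-/

open Matrix

namespace Vale.Agent.Results.P002.CentralExtensions

variable {Γ : Type} [Group Γ] {r : ℕ}

/-- The value at `ρ : Γ → SL_r(A)` of a polynomial in the entries of the matrices `ρ(γ)`,
`γ ∈ Γ`, with coefficients in `R`. -/
noncomputable def value {R A : Type} [CommRing R] [CommRing A] [Algebra R A]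
    (F : MvPolynomial (Γ × Fin r × Fin r) R) (ρ : Γ →* SpecialLinearGroup (Fin r) A) : A :=
  MvPolynomial.aeval (fun y => (ρ y.1 : Matrix (Fin r) (Fin r) A) y.2.1 y.2.2) F

/-- The conjugate `a ρ a⁻¹`. -/
def conj {A : Type} [CommRing A] (a : SpecialLinearGroup (Fin r) A)
    (ρ : Γ →* SpecialLinearGroup (Fin r) A) : Γ →* SpecialLinearGroup (Fin r) A :=
  (MulAut.conj a).toMonoidHom.comp ρ

/-- `F` represents an element of `O(Rep_r)^{SL_r}` (over `ℤ`): the function `ρ ↦ F(ρ)` on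
`Hom(Γ, SL_r(A))` is invariant under conjugation by `SL_r(A)`, for every commutative ring `A`. -/
def IsInvariant (F : MvPolynomial (Γ × Fin r × Fin r) ℤ) : Prop :=
  ∀ (A : Type) [CommRing A] (ρ : Γ →* SpecialLinearGroup (Fin r) A)
    (a : SpecialLinearGroup (Fin r) A), value F (conj a ρ) = value F ρ

/-- Complex regular functions on `M_r`: polynomials over `ℂ` in the matrix entries which are
invariant under conjugation on `Hom(Γ, SL_r(ℂ))`. -/
def IsInvariantC (f : MvPolynomial (Γ × Fin r × Fin r) ℂ) : Prop :=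
  ∀ (ρ : Γ →* SpecialLinearGroup (Fin r) ℂ) (a : SpecialLinearGroup (Fin r) ℂ),
    value f (conj a ρ) = value f ρ

/-- Semisimple: every `Γ`-stable subspace of `ℂ^r` has a `Γ`-stable complement. -/
def IsSemisimple (ρ : Γ →* SpecialLinearGroup (Fin r) ℂ) : Prop :=
  ∀ W : Submodule ℂ (Fin r → ℂ),
    (∀ γ, ∀ w ∈ W, (ρ γ : Matrix (Fin r) (Fin r) ℂ).mulVec w ∈ W) →
    ∃ W' : Submodule ℂ (Fin r → ℂ),
      (∀ γ, ∀ w ∈ W', (ρ γ : Matrix (Fin r) (Fin r) ℂ).mulVec w ∈ W') ∧ IsCompl W W'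

/-- The set `Y`: semisimple `ρ` (representing the complex points of `M_r`) with `ρ(g t)` in the
prescribed conjugacy class `C t` for all `t`. -/
def Y {s : ℕ} (g : Fin s → Γ) (C : Fin s → ConjClasses (SpecialLinearGroup (Fin r) ℂ)) :
    Set (Γ →* SpecialLinearGroup (Fin r) ℂ) :=
  {ρ | IsSemisimple ρ ∧ ∀ t, ConjClasses.mk (ρ (g t)) = C t}

/-- A conjugacy class all of whose eigenvalues are roots of unity. -/
def QuasiUnipotent (C : ConjClasses (SpecialLinearGroup (Fin r) ℂ)) : Prop :=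
  ∀ a : SpecialLinearGroup (Fin r) ℂ, ConjClasses.mk a = C →
    ∀ l : ℂ, (a : Matrix (Fin r) (Fin r) ℂ).charpoly.IsRoot l → ∃ q : ℕ, 0 < q ∧ l ^ q = 1

/-- The class of `ρ` is an `O_L`-integral point of `M_r`: every element of `O(Rep_r)^{SL_r}`
takes a value in `O_L` at `ρ`. -/
def IsIntegralPoint (L : IntermediateField ℚ ℂ) (ρ : Γ →* SpecialLinearGroup (Fin r) ℂ) : Prop :=
  ∀ F : MvPolynomial (Γ × Fin r × Fin r) ℤ, IsInvariant F →
    value F ρ ∈ L ∧ IsIntegral ℤ (value F ρ)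

/-- `ρ` itself has values in `SL_r(O_L)`. -/
def IsIntegralRep (L : IntermediateField ℚ ℂ) (ρ : Γ →* SpecialLinearGroup (Fin r) ℂ) : Prop :=
  ∀ γ i j, (ρ γ : Matrix (Fin r) (Fin r) ℂ) i j ∈ L ∧
    IsIntegral ℤ ((ρ γ : Matrix (Fin r) (Fin r) ℂ) i j)

/-- `T` is a Zariski dense subset of `V` in `M_r(ℂ)`. -/
def ZariskiDense (T V : Set (Γ →* SpecialLinearGroup (Fin r) ℂ)) : Prop :=
  T ⊆ V ∧ ∀ f : MvPolynomial (Γ × Fin r × Fin r) ℂ, IsInvariantC f →
    (∀ ρ ∈ T, value f ρ = 0) → ∀ ρ ∈ V, value f ρ = 0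

/-- Let `Γ` be a finitely generated group with a central subgroup `Z` such that `Γ/Z` is a free
product of finitely many cyclic groups `ℤ/p_i` (`p_i = 0` means `ℤ`; no factor at all is
allowed).  Let `r > 0`, let `g_t` be finitely many elements of `Z` and `C_t` quasi-unipotent
conjugacy classes of `SL_r(ℂ)` (possibly no `t` at all).  Then there is one number field `L` such
that the `O_L`-integral points, even those represented by semisimple `ρ : Γ → SL_r(O_L)`, are
Zariski dense in `Y`. -/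
theorem result (Γ : Type) [Group Γ] [Group.FG Γ] (Z : Subgroup Γ) [Z.Normal]
    (hZ : Z ≤ Subgroup.center Γ) (k : ℕ) (p : Fin k → ℕ)
    (E : Γ ⧸ Z ≃* Monoid.CoprodI (fun i : Fin k => Multiplicative (ZMod (p i))))
    (r : ℕ) (hr : 0 < r) (s : ℕ) (g : Fin s → Γ) (hg : ∀ t, g t ∈ Z)
    (C : Fin s → ConjClasses (SpecialLinearGroup (Fin r) ℂ)) (hC : ∀ t, QuasiUnipotent (C t)) :
    ∃ L : IntermediateField ℚ ℂ, FiniteDimensional ℚ L ∧
      ZariskiDense {ρ | ρ ∈ Y g C ∧ IsIntegralPoint L ρ ∧ IsIntegralRep L ρ} (Y g C) := by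
  choose c hc using fun t => Quotient.exists_rep (C t)
  obtain ⟨L, hL, h⟩ := _root_.P002.final Z hZ k p E hr g hg c (fun t l hl => hC t (c t) (hc t) l hl)
  refine ⟨L, hL, fun ρ hρ => hρ.1, fun f hf hT ρ hρ => ?_⟩
  have hiff : ∀ (ρ : Γ →* SpecialLinearGroup (Fin r) ℂ) (t : Fin s),
      IsConj (ρ (g t)) (c t) ↔ ConjClasses.mk (ρ (g t)) = C t := by
    intro ρ t
    rw [← hc t]
    exact ConjClasses.mk_eq_mk_iff_isConj.symm
  refine h f (fun a ρ => hf ρ a) (fun ρ hs hconj hint => ?_) ρ hρ.1 (fun t => (hiff ρ t).mpr (hρ.2 t))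
  refine hT ρ ⟨⟨hs, fun t => (hiff ρ t).mp (hconj t)⟩, fun F _ => ?_, hint⟩
  have hmem : ∀ F : MvPolynomial (Γ × Fin r × Fin r) ℤ, value F ρ ∈ _root_.P002.OL L := by
    intro F
    unfold value
    induction F using MvPolynomial.induction_on with
    | C a =>
      rw [MvPolynomial.aeval_C]
      exact intCast_mem (_root_.P002.OL L) a
    | add F G hF hG =>
      rw [map_add]
      exact (_root_.P002.OL L).add_mem hF hG
    | mul_X F y hF =>
      rw [map_mul, MvPolynomial.aeval_X]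
      exact (_root_.P002.OL L).mul_mem hF (_root_.P002.mem_OL.mpr (hint y.1 y.2.1 y.2.2))
  exact _root_.P002.mem_OL.mp (hmem F)

end Vale.Agent.Results.P002.CentralExtensions
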