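import Mathlib
import Vale.Agent.Lib.P002.Final

/-!
# P002: potential density of integral points, in every rank and for every fundamental group, on
the loci pulled back from central extensions of free products of cyclic groups
-/

open Matrix

namespace Vale.Agent.Results.P002.PullbackLoci

variable {Γ : Type} [Group Γ] {r : ℕ}

/-- The value at `ρ : Γ → SL_r(A)` of a polynomial in the entries of the matrices `ρ(γ)`,
`γ ∈ Γ`, with coefficients in `R`. -/
noncomputable def value {R A : Type} [CommRing R] [CommRing A] [Algebra R A]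
    (F : MvPolynomial (Γ × Fin r × Fin r) R) (ρ : Γ →* SpecialLinearGroup (Fin r) A) : A :=
  MvPolynomial.aeval (fun y => (ρ y.1 : Matrix (Fin r) (Fin r) A) y.2.1 y.2.2) F

/-- The conjugate `a ρ a⁻¹`. -/
def conj {A : Type} [CommRing A] (a : SpecialLinearGroup (Fin r) A)
    (ρ : Γ →* SpecialLinearGroup (Fin r) A) : Γ →* SpecialLinearGroup (Fin r) A :=
  (MulAut.conj a).toMonoidHom.comp ρ

/-- `F` represents an element of `O(Rep_r)^{SL_r}` (over `ℤ`): the function `ρ ↦ F(ρ)` on
`Hom(Γ, SL_r(A))` is invariant under conjugation by `SL_r(A)`, for every commutative ring `A`. -/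
def IsInvariant (F : MvPolynomial (Γ × Fin r × Fin r) ℤ) : Prop :=
  ∀ (A : Type) [CommRing A] (ρ : Γ →* SpecialLinearGroup (Fin r) A)
    (a : SpecialLinearGroup (Fin r) A), value F (conj a ρ) = value F ρ

/-- Complex regular functions on `M_r`: polynomials over `ℂ` in the matrix entries which are
invariant under conjugation on `Hom(Γ, SL_r(ℂ))`. -/
def IsInvariantC (f : MvPolynomial (Γ × Fin r × Fin r) ℂ) : Prop :=
  ∀ (ρ : Γ →* SpecialLinearGroup (Fin r) ℂ) (a : SpecialLinearGroup (Fin r) ℂ),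
    value f (conj a ρ) = value f ρ

/-- Semisimple: every `Γ`-stable subspace of `ℂ^r` has a `Γ`-stable complement. -/
def IsSemisimple (ρ : Γ →* SpecialLinearGroup (Fin r) ℂ) : Prop :=
  ∀ W : Submodule ℂ (Fin r → ℂ),
    (∀ γ, ∀ w ∈ W, (ρ γ : Matrix (Fin r) (Fin r) ℂ).mulVec w ∈ W) →
    ∃ W' : Submodule ℂ (Fin r → ℂ),
      (∀ γ, ∀ w ∈ W', (ρ γ : Matrix (Fin r) (Fin r) ℂ).mulVec w ∈ W') ∧ IsCompl W W'

/-- The set `Y`: semisimple `ρ` (representing the complex points of `M_r`) with `ρ(g t)` in the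
prescribed conjugacy class `C t` for all `t`. -/
def Y {s : ℕ} (g : Fin s → Γ) (C : Fin s → ConjClasses (SpecialLinearGroup (Fin r) ℂ)) :
    Set (Γ →* SpecialLinearGroup (Fin r) ℂ) :=
  {ρ | IsSemisimple ρ ∧ ∀ t, ConjClasses.mk (ρ (g t)) = C t}

/-- A conjugacy class all of whose eigenvalues are roots of unity. -/
def QuasiUnipotent (C : ConjClasses (SpecialLinearGroup (Fin r) ℂ)) : Prop :=
  ∀ a : SpecialLinearGroup (Fin r) ℂ, ConjClasses.mk a = C →
    ∀ l : ℂ, (a : Matrix (Fin r) (Fin r) ℂ).charpoly.IsRoot l → ∃ q : ℕ, 0 < q ∧ l ^ q = 1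

/-- The class of `ρ` is an `O_L`-integral point of `M_r`: every element of `O(Rep_r)^{SL_r}`
takes a value in `O_L` at `ρ`. -/
def IsIntegralPoint (L : IntermediateField ℚ ℂ) (ρ : Γ →* SpecialLinearGroup (Fin r) ℂ) : Prop :=
  ∀ F : MvPolynomial (Γ × Fin r × Fin r) ℤ, IsInvariant F →
    value F ρ ∈ L ∧ IsIntegral ℤ (value F ρ)

/-- `ρ` itself has values in `SL_r(O_L)`. -/
def IsIntegralRep (L : IntermediateField ℚ ℂ) (ρ : Γ →* SpecialLinearGroup (Fin r) ℂ) : Prop :=
  ∀ γ i j, (ρ γ : Matrix (Fin r) (Fin r) ℂ) i j ∈ L ∧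
    IsIntegral ℤ ((ρ γ : Matrix (Fin r) (Fin r) ℂ) i j)

/-- `T` is a Zariski dense subset of `V` in `M_r(ℂ)`. -/
def ZariskiDense (T V : Set (Γ →* SpecialLinearGroup (Fin r) ℂ)) : Prop :=
  T ⊆ V ∧ ∀ f : MvPolynomial (Γ × Fin r × Fin r) ℂ, IsInvariantC f →
    (∀ ρ ∈ T, value f ρ = 0) → ∀ ρ ∈ V, value f ρ = 0

/-- The part of `V` consisting of the representations which factor through `π : Γ → Q`. -/
def Factoring {Q : Type} [Group Q] (π : Γ →* Q)
    (V : Set (Γ →* SpecialLinearGroup (Fin r) ℂ)) : Set (Γ →* SpecialLinearGroup (Fin r) ℂ) :=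
  {ρ | ρ ∈ V ∧ ∃ ρ' : Q →* SpecialLinearGroup (Fin r) ℂ, ρ = ρ'.comp π}

/-- Let `Γ` be any finitely generated group, `π : Γ → Q` a surjection onto a group `Q` with a
central subgroup `Z` such that `Q/Z` is a free product of finitely many cyclic groups `ℤ/p_i`
(`p_i = 0` means `ℤ`; no factor at all is allowed).  Let `r > 0`, `g_t` finitely many elements of
`Γ` with `π(g_t) ∈ Z`, `C_t` quasi-unipotent conjugacy classes of `SL_r(ℂ)` (possibly no `t` at
all).  Then there is one number field `L` such that the `O_L`-integral points, even those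
represented by semisimple `ρ : Γ → SL_r(O_L)`, are Zariski dense in the set of the points of `Y`
which factor through `π`. -/
theorem result (Γ Q : Type) [Group Γ] [Group.FG Γ] [Group Q] (π : Γ →* Q)
    (hπ : Function.Surjective π) (Z : Subgroup Q) [Z.Normal]
    (hZ : Z ≤ Subgroup.center Q) (k : ℕ) (p : Fin k → ℕ)
    (E : Q ⧸ Z ≃* Monoid.CoprodI (fun i : Fin k => Multiplicative (ZMod (p i))))
    (r : ℕ) (hr : 0 < r) (s : ℕ) (g : Fin s → Γ) (hg : ∀ t, π (g t) ∈ Z)
    (C : Fin s → ConjClasses (SpecialLinearGroup (Fin r) ℂ)) (hC : ∀ t, QuasiUnipotent (C t)) :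
    ∃ L : IntermediateField ℚ ℂ, FiniteDimensional ℚ L ∧
      ZariskiDense {ρ | ρ ∈ Factoring π (Y g C) ∧ IsIntegralPoint L ρ ∧ IsIntegralRep L ρ}
        (Factoring π (Y g C)) := by
  choose c hc using fun t => Quotient.exists_rep (C t)
  have hQ : Group.FG Q := Group.fg_of_surjective hπ
  obtain ⟨L, hL, h⟩ := _root_.P002.final Z hZ k p E hr (fun t => π (g t)) hg c
    (fun t l hl => hC t (c t) (hc t) l hl)
  refine ⟨L, hL, fun ρ hρ => hρ.1, fun f hf hT ρ hρ => ?_⟩
  have hiff : ∀ (a : SpecialLinearGroup (Fin r) ℂ) (t : Fin s),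
      IsConj a (c t) ↔ ConjClasses.mk a = C t := by
    intro a t
    rw [← hc t]
    exact ConjClasses.mk_eq_mk_iff_isConj.symm
  -- transport of polynomials
  have hval : ∀ σ : Q →* SpecialLinearGroup (Fin r) ℂ,
      MvPolynomial.eval (_root_.P002.ent (fun γ => (σ γ : Matrix (Fin r) (Fin r) ℂ)))
        (MvPolynomial.rename (fun y : Γ × Fin r × Fin r => (π y.1, y.2)) f)
        = value f (σ.comp π) := by
    intro σ
    rw [MvPolynomial.eval_rename]
    unfold value
    rw [MvPolynomial.aeval_eq_eval]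
    rfl
  have hsemi : ∀ σ : Q →* SpecialLinearGroup (Fin r) ℂ,
      IsSemisimple (σ.comp π) ↔
        _root_.P002.Semis (fun γ => (σ γ : Matrix (Fin r) (Fin r) ℂ)) := by
    intro σ
    have hinv : ∀ W : Submodule ℂ (Fin r → ℂ),
        (∀ γ, ∀ w ∈ W, ((σ.comp π) γ : Matrix (Fin r) (Fin r) ℂ).mulVec w ∈ W) ↔
        _root_.P002.Invt (fun γ => (σ γ : Matrix (Fin r) (Fin r) ℂ)) W := by
      intro W
      constructor
      · intro h γ w hw
        obtain ⟨γ', rfl⟩ := hπ γ
        exact h γ' w hw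
      · intro h γ w hw
        exact h (π γ) w hw
    constructor
    · intro h W hW
      obtain ⟨W', h1, h2⟩ := h W ((hinv W).mpr hW)
      exact ⟨W', (hinv W').mp h1, h2⟩
    · intro h W hW
      obtain ⟨W', h1, h2⟩ := h W ((hinv W).mp hW)
      exact ⟨W', (hinv W').mpr h1, h2⟩
  obtain ⟨⟨hρs, hρC⟩, σ, rfl⟩ := hρ
  rw [← hval σ]
  refine h _ (fun a τ => ?_) (fun τ hτs hτC hτint => ?_) σ ((hsemi σ).mp hρs)
    (fun t => (hiff _ t).mpr (hρC t))
  · rw [hval τ]
    have h1 := hval ((MulAut.conj a).toMonoidHom.comp τ)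
    refine h1.trans ?_
    exact hf (τ.comp π) a
  · rw [hval τ]
    have hint : IsIntegralRep L (τ.comp π) := fun γ i j => hτint (π γ) i j
    refine hT (τ.comp π) ⟨⟨⟨(hsemi τ).mpr hτs, fun t => (hiff _ t).mp (hτC t)⟩, τ, rfl⟩,
      fun F _ => ?_, hint⟩
    have hmem : ∀ F : MvPolynomial (Γ × Fin r × Fin r) ℤ,
        value F (τ.comp π) ∈ _root_.P002.OL L := by
      intro F
      unfold value
      induction F using MvPolynomial.induction_on with
      | C a =>
        rw [MvPolynomial.aeval_C]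
        exact intCast_mem (_root_.P002.OL L) a
      | add F G hF hG =>
        rw [map_add]
        exact (_root_.P002.OL L).add_mem hF hG
      | mul_X F y hF =>
        rw [map_mul, MvPolynomial.aeval_X]
        exact (_root_.P002.OL L).mul_mem hF (_root_.P002.mem_OL.mpr (hint y.1 y.2.1 y.2.2))
    exact _root_.P002.mem_OL.mp (hmem F)

end Vale.Agent.Results.P002.PullbackLoci
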